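import Vale.Agent.P025.Local
import Vale.Agent.P025.NoSection

/-!
# Curves over p-adic fields with no rational point and no section
-/

namespace Vale.Agent.Results.P025.NoSectionCurves

open Vale.Agent.P025

theorem result : ∀ (p : ℕ) [Fact p.Prime] (k : Type) [Field k] [Algebra ℚ_[p] k]
    [FiniteDimensional ℚ_[p] k] (m : ℕ),
    ∃ (Ω : Type) (_ : Field Ω) (_ : Algebra k Ω) (_ : IsAlgClosed Ω) (K : IntermediateField k Ω),
      IsCurveOfGenus K (2 * m + 1) ∧ ¬ HasRationalPoint K ∧ ¬ HasSection K := by
  intro p _ k _ _ _ m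
  have : CharZero k := charZero_of_injective_algebraMap (algebraMap ℚ_[p] k).injective
  obtain ⟨d, e, hd, he, hN, hpow⟩ := exists_nonnorm p k
  obtain ⟨D, rfl⟩ := exists_data (m := m) hd he hN (hpow _ (by omega))
  exact ⟨Omega k, inferInstance, inferInstance, inferInstance, D.K, D.isCurveOfGenus, D.noPoint, D.noSection⟩

end Vale.Agent.Results.P025.NoSectionCurves
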